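import Mathlib

/-!
Lipschitz maps: null sets, the area inequality, and the no-retraction theorem.
-/

namespace Vale.Agent.P084.Finite

open MeasureTheory Metric Filter Topology

variable {X : Type*} [NormedAddCommGroup X] [NormedSpace ℝ X] [FiniteDimensional ℝ X]
  [MeasurableSpace X] [BorelSpace X] (μ : Measure X) [μ.IsAddHaarMeasure]

theorem lipschitz_image_null {K : NNReal} {f : X → X} (hf : LipschitzWith K f) {s : Set X}
    (hs : μ s = 0) : μ (f '' s) = 0 := by
  set d : ℝ := (Module.finrank ℝ X : ℝ) with hd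
  have hμH : (μH[d] : Measure X) ≪ μ := by
    have := Measure.isAddLeftInvariant_eq_smul (μH[d] : Measure X) μ
    rw [this]
    exact Measure.smul_absolutelyContinuous
  have hμ : μ ≪ (μH[d] : Measure X) := by
    have := Measure.isAddLeftInvariant_eq_smul μ (μH[d] : Measure X)
    rw [this]
    exact Measure.smul_absolutelyContinuous
  refine hμ ?_
  have h := hf.hausdorffMeasure_image_le (d := d) (Nat.cast_nonneg _) s
  rw [hμH hs, mul_zero] at h
  exact le_antisymm h bot_le

/-- the area inequality for Lipschitz maps -/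
theorem image_le_lintegral_det {K : NNReal} {f : X → X} (hf : LipschitzWith K f) {s : Set X}
    (hs : MeasurableSet s) :
    μ (f '' s) ≤ ∫⁻ x in s, ENNReal.ofReal |(fderiv ℝ f x).det| ∂μ := by
  set D := s ∩ {x | DifferentiableAt ℝ f x} with hD
  have hnull : μ (s \ D) = 0 := by
    refine measure_mono_null (fun x hx hd => hx.2 ⟨hx.1, hd⟩) ?_
    exact ae_iff.mp (hf.ae_differentiableAt (μ := μ))
  have hsub : f '' s ⊆ f '' D ∪ f '' (s \ D) := by
    rw [← Set.image_union]
    refine Set.image_mono fun x hx => ?_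
    by_cases h : x ∈ D
    · exact Or.inl h
    · exact Or.inr ⟨hx, h⟩
  calc μ (f '' s) ≤ μ (f '' D ∪ f '' (s \ D)) := measure_mono hsub
    _ ≤ μ (f '' D) + μ (f '' (s \ D)) := measure_union_le _ _
    _ = μ (f '' D) := by rw [lipschitz_image_null μ hf hnull, add_zero]
    _ ≤ ∫⁻ x in D, ENNReal.ofReal |(fderiv ℝ f x).det| ∂μ :=
        addHaar_image_le_lintegral_abs_det_fderiv μ
          (hs.inter (measurableSet_of_differentiableAt ℝ f))
          fun x hx => hx.2.hasFDerivAt.hasFDerivWithinAt
    _ ≤ ∫⁻ x in s, ENNReal.ofReal |(fderiv ℝ f x).det| ∂μ :=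
        lintegral_mono_set Set.inter_subset_left

omit [MeasurableSpace X] [BorelSpace X] in
theorem det_one_add_pos (A : X →L[ℝ] X) {t : ℝ} (ht : |t| * ‖A‖ < 1) :
    0 < (1 + t • A).det := by
  have hne : ∀ s ∈ Set.Icc (0 : ℝ) 1, (1 + (s * t) • A).det ≠ 0 := by
    intro s hs h0
    obtain ⟨v, hv, hv0⟩ := Submodule.exists_mem_ne_zero_of_ne_bot
      (LinearMap.det_eq_zero_iff_ker_ne_bot.mp
        (h0 : LinearMap.det ((1 + (s * t) • A : X →L[ℝ] X) : X →ₗ[ℝ] X) = 0))
    have h1 : v + (s * t) • A v = 0 := hv
    have h2 : ‖v‖ ≤ |s * t| * (‖A‖ * ‖v‖) := by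
      calc ‖v‖ = ‖-((s * t) • A v)‖ := congrArg norm (eq_neg_of_add_eq_zero_left h1)
        _ = |s * t| * ‖A v‖ := by rw [norm_neg, norm_smul, Real.norm_eq_abs]
        _ ≤ |s * t| * (‖A‖ * ‖v‖) := mul_le_mul_of_nonneg_left (A.le_opNorm v) (abs_nonneg _)
    have h3 : |s * t| * ‖A‖ < 1 := by
      refine lt_of_le_of_lt ?_ ht
      rw [abs_mul, abs_of_nonneg hs.1, mul_assoc]
      exact mul_le_of_le_one_left (by positivity) hs.2
    nlinarith [norm_pos_iff.mpr hv0]
  have hcont : Continuous fun s : ℝ => (1 + (s * t) • A).det :=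
    ContinuousLinearMap.continuous_det.comp (by fun_prop)
  by_contra hcon
  push Not at hcon
  have h1 : (1 + ((0 : ℝ) * t) • A).det = 1 := by
    rw [zero_mul, zero_smul, add_zero]; exact LinearMap.det_id
  have h0 : (1 + ((1 : ℝ) * t) • A).det ≤ 0 := by rwa [one_mul]
  obtain ⟨s, hs, hs0⟩ := intermediate_value_Icc' zero_le_one hcont.continuousOn
    (show (0 : ℝ) ∈ Set.Icc _ _ from ⟨h0, by rw [h1]; exact zero_le_one⟩)
  exact hne s hs hs0

omit [MeasurableSpace X] [BorelSpace X] in
/-- interpolation of the polynomial `t ↦ det (1 + t A)` -/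
theorem det_interpolate {n : ℕ} (hn : Module.finrank ℝ X = n) {v : Fin (n + 1) → ℝ}
    (hv : Function.Injective v) (A : X →L[ℝ] X) :
    (1 + A).det = ∑ j, (Lagrange.basis Finset.univ v j).eval 1 * (1 + v j • A).det := by
  set b := Module.finBasisOfFinrankEq ℝ X hn
  set M := LinearMap.toMatrix b b (A : X →ₗ[ℝ] X) with hM
  set p : Polynomial ℝ := ((Polynomial.X : Polynomial ℝ) • M.map ⇑Polynomial.C
    + (1 : Matrix (Fin n) (Fin n) ℝ).map ⇑Polynomial.C).det with hp
  have hev : ∀ t : ℝ, p.eval t = (1 + t • A).det := by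
    intro t
    have h1 : (1 + t • A).det = (1 + t • M).det := by
      show LinearMap.det (((1 + t • A : X →L[ℝ] X)) : X →ₗ[ℝ] X) = _
      rw [← LinearMap.det_toMatrix b]
      congr 1
      rw [ContinuousLinearMap.coe_add, ContinuousLinearMap.coe_smul, map_add, map_smul,
        ContinuousLinearMap.coe_one, LinearMap.toMatrix_one]
    rw [h1, hp, ← Polynomial.coe_evalRingHom, RingHom.map_det]
    congr 1
    ext i j
    by_cases h : i = j <;> simp [h] <;> ring
  have hdeg : p.degree < ((Finset.univ : Finset (Fin (n + 1))).card : ℕ) := by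
    rw [Finset.card_univ, Fintype.card_fin]
    refine lt_of_le_of_lt Polynomial.degree_le_natDegree ?_
    have := Polynomial.natDegree_det_X_add_C_le M (1 : Matrix (Fin n) (Fin n) ℝ)
    rw [Fintype.card_fin, ← hp] at this
    exact_mod_cast Nat.lt_succ_of_le this
  have h := congrArg (Polynomial.eval (1 : ℝ)) (Lagrange.eq_interpolate hv.injOn hdeg)
  rw [hev, one_smul, Lagrange.interpolate_apply, Polynomial.eval_finsetSum] at h
  rw [h]
  refine Finset.sum_congr rfl fun j _ => ?_
  rw [Polynomial.eval_mul, Polynomial.eval_C, hev, mul_comm]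

/-- there is no Lipschitz retraction of the ball onto the sphere -/
theorem no_retraction {X : Type*} [NormedAddCommGroup X] [NormedSpace ℝ X] [FiniteDimensional ℝ X]
    {K : NNReal} {r : X → X} (hr : LipschitzWith K r)
    (hs : ∀ x, ‖x‖ ≤ 1 → ‖r x‖ = 1) (ho : ∀ x, 1 ≤ ‖x‖ → r x = x) : False := by
  letI : MeasurableSpace X := borel X
  haveI : BorelSpace X := ⟨rfl⟩
  set μ : Measure X := Measure.addHaar
  rcases subsingleton_or_nontrivial X with hX | hX
  · have := hs 0 (by simp)
    rw [Subsingleton.elim (r 0) 0, norm_zero] at this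
    exact zero_ne_one this
  set B := closedBall (0 : X) 1 with hB
  set n := Module.finrank ℝ X
  set A : X → X →L[ℝ] X := fun x => fderiv ℝ r x - 1 with hA
  set L : ℝ := (K : ℝ) + 1 with hL
  have hLp : 0 < L := by positivity
  have hAn : ∀ x, ‖A x‖ ≤ L := fun x => by
    refine (norm_sub_le _ _).trans (add_le_add (norm_fderiv_le_of_lipschitz ℝ hr) ?_)
    exact ContinuousLinearMap.norm_id_le
  set v : Fin (n + 1) → ℝ := fun j => (j + 1 : ℝ) / ((n + 2 : ℝ) * (2 * L)) with hv
  have hvi : Function.Injective v := fun i j h => by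
    simp only [hv] at h
    rw [div_left_inj' (by positivity)] at h
    exact Fin.ext (by exact_mod_cast add_right_cancel h)
  have hvs : ∀ j, 0 ≤ v j ∧ v j * L < 1 := fun j => by
    refine ⟨by positivity, ?_⟩
    simp only [hv]
    rw [div_mul_eq_mul_div, div_lt_one (by positivity)]
    have : (j : ℝ) + 1 ≤ n + 1 := by
      have : (j : ℕ) ≤ n := Nat.lt_succ_iff.mp j.2
      exact_mod_cast Nat.succ_le_succ this
    nlinarith
  set D := ball (0 : X) 1 ∩ {x | DifferentiableAt ℝ r x} with hD
  have hDm : MeasurableSet D :=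
    measurableSet_ball.inter (measurableSet_of_differentiableAt ℝ r)
  have hDB : D ⊆ B := Set.inter_subset_left.trans ball_subset_closedBall
  have hBD : μ (B \ D) = 0 := by
    refine measure_mono_null (fun x hx => ?_)
      (measure_union_null (Measure.addHaar_sphere μ (0 : X) 1)
        (ae_iff.mp (hr.ae_differentiableAt (μ := μ))))
    by_cases h : ‖x‖ = 1
    · exact Or.inl (by simpa using h)
    · exact Or.inr fun hd => hx.2 ⟨by
        have h1 : ‖x‖ ≤ 1 := by simpa [hB] using hx.1
        simpa using lt_of_le_of_ne h1 h, hd⟩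
  have hμD : μ D = μ B := by
    refine le_antisymm (measure_mono hDB) ?_
    calc μ B ≤ μ (D ∪ (B \ D)) := measure_mono fun x hx => by
          by_cases h : x ∈ D
          · exact Or.inl h
          · exact Or.inr ⟨hx, h⟩
      _ ≤ μ D + μ (B \ D) := measure_union_le _ _
      _ = μ D := by rw [hBD, add_zero]
  -- each small deformation maps the ball onto itself
  have key : ∀ j, ∫ x in D, (1 + v j • A x).det ∂μ = μ.real B := by
    intro j
    obtain ⟨ht0, htL⟩ := hvs j
    set t := v j
    set Ψ : X → X := fun x => x + t • (r x - x) with hΨ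
    have hP : LipschitzWith (K + 1) fun x => r x - x := hr.sub LipschitzWith.id
    have hPb : ∀ a b, ‖(r a - a) - (r b - b)‖ ≤ L * ‖a - b‖ := fun a b => by
      simpa [dist_eq_norm, hL] using hP.dist_le_mul a b
    have hinj : Function.Injective Ψ := by
      intro a b hab
      simp only [hΨ] at hab
      have h1 : a - b = t • ((r b - b) - (r a - a)) := by
        rw [smul_sub, eq_sub_iff_add_eq, sub_add_eq_add_sub, sub_eq_iff_eq_add, hab, add_comm]
      have h2 : ‖a - b‖ ≤ t * (L * ‖a - b‖) := by
        conv_lhs => rw [h1, norm_smul, Real.norm_eq_abs, abs_of_nonneg ht0]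
        rw [norm_sub_rev a b]
        exact mul_le_mul_of_nonneg_left (hPb b a) ht0
      have h3 : ‖a - b‖ = 0 := by nlinarith [norm_nonneg (a - b)]
      exact sub_eq_zero.mp (norm_eq_zero.mp h3)
    have hsurj : Function.Surjective Ψ := by
      intro y
      have hc : ContractingWith (t * L).toNNReal fun x => y - t • (r x - x) := by
        refine ⟨Real.toNNReal_lt_one.mpr htL, LipschitzWith.of_dist_le_mul fun a b => ?_⟩
        rw [dist_eq_norm, dist_eq_norm, sub_sub_sub_cancel_left, ← smul_sub, norm_smul,
          Real.norm_eq_abs, abs_of_nonneg ht0, Real.coe_toNNReal _ (by positivity), mul_assoc,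
          norm_sub_rev a b]
        exact mul_le_mul_of_nonneg_left (hPb b a) ht0
      refine ⟨hc.fixedPoint _, ?_⟩
      have h := hc.fixedPoint_isFixedPt.eq
      simp only [hΨ]
      exact eq_sub_iff_add_eq.mp h.symm
    have hout : ∀ x, x ∉ B → Ψ x = x := fun x hx => by
      simp only [hB, mem_closedBall, dist_zero_right, not_le] at hx
      simp [hΨ, ho x hx.le]
    have himg : Ψ '' B = B := by
      refine Set.Subset.antisymm ?_ fun y hy => ?_
      · rintro _ ⟨x, hx, rfl⟩
        by_contra h
        have := hinj (hout _ h)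
        rw [this] at h
        exact h hx
      · obtain ⟨x, rfl⟩ := hsurj y
        refine ⟨x, ?_, rfl⟩
        by_contra h
        rw [hout x h] at hy
        exact h hy
    have hΨl : LipschitzWith (1 + ‖t‖₊ * (K + 1)) Ψ :=
      LipschitzWith.id.add ((lipschitzWith_smul t).comp hP)
    have hder : ∀ x ∈ D, HasFDerivWithinAt Ψ (1 + t • A x) D x := fun x hx =>
      ((hasFDerivAt_id x).add ((hx.2.hasFDerivAt.sub (hasFDerivAt_id x)).const_smul t)
        ).hasFDerivWithinAt
    have hμΨ : μ (Ψ '' D) = μ B := by
      refine le_antisymm ((measure_mono (Set.image_mono hDB)).trans_eq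
        (by rw [himg])) ?_
      calc μ B = μ (Ψ '' B) := by rw [himg]
        _ ≤ μ (Ψ '' D ∪ Ψ '' (B \ D)) := by
            refine measure_mono ?_
            rw [← Set.image_union]
            exact Set.image_mono fun x hx => by
              by_cases h : x ∈ D
              · exact Or.inl h
              · exact Or.inr ⟨hx, h⟩
        _ ≤ μ (Ψ '' D) + μ (Ψ '' (B \ D)) := measure_union_le _ _
        _ = μ (Ψ '' D) := by rw [lipschitz_image_null μ hΨl hBD, add_zero]
    have hint := lintegral_abs_det_fderiv_eq_addHaar_image μ hDm hder hinj.injOn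
    have hpos : ∀ x, 0 < (1 + t • A x).det := fun x => det_one_add_pos _ (by
      rw [abs_of_nonneg ht0]
      exact lt_of_le_of_lt (mul_le_mul_of_nonneg_left (hAn x) ht0) htL)
    have hmeas : Measurable fun x => (1 + t • A x).det :=
      ContinuousLinearMap.continuous_det.measurable.comp
        ((continuous_const.add ((continuous_id.sub continuous_const).const_smul t)).measurable.comp
          (measurable_fderiv ℝ r))
    rw [integral_eq_lintegral_of_nonneg_ae (Eventually.of_forall fun x => (hpos x).le)
      hmeas.aestronglyMeasurable]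
    simp_rw [abs_of_pos (hpos _)] at hint
    rw [hint, hμΨ]
    rfl
  -- the polynomial at `1`
  have hint1 : ∀ j, IntegrableOn (fun x => (1 + v j • A x).det) D μ := fun j => by
    obtain ⟨C, hC⟩ := ((isCompact_closedBall (0 : X →L[ℝ] X) L).image
      (show Continuous fun B : X →L[ℝ] X => (1 + v j • B).det from
        ContinuousLinearMap.continuous_det.comp (by fun_prop))).isBounded.exists_norm_le
    refine IntegrableOn.of_bound (lt_of_le_of_lt (measure_mono hDB)
      (isCompact_closedBall _ _).measure_lt_top) ?_ C (Eventually.of_forall fun x =>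
        hC _ ⟨A x, by simpa using hAn x, rfl⟩)
    exact (ContinuousLinearMap.continuous_det.measurable.comp
      ((continuous_const.add ((continuous_id.sub continuous_const).const_smul (v j))).measurable.comp
        (measurable_fderiv ℝ r))).aestronglyMeasurable
  have hzero : ∀ x ∈ D, (1 + A x).det = 0 := by
    intro x hx
    have hxb : ‖x‖ < 1 := by simpa using hx.1
    have hx1 : ‖x‖ ≤ 1 := hxb.le
    obtain ⟨φ, hφ1, hφx⟩ := exists_dual_vector'' ℝ (r x)
    simp only [RCLike.ofReal_real_eq_id, id_eq] at hφx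
    by_contra hne
    have hsurj : Function.Surjective (fderiv ℝ r x) := by
      have : (1 + A x) = fderiv ℝ r x := by simp [hA]
      rw [this] at hne
      exact (LinearMap.injective_iff_surjective (f := (fderiv ℝ r x : X →ₗ[ℝ] X))).mp
        (LinearMap.ker_eq_bot.mp (by
          by_contra hk; exact hne (LinearMap.det_eq_zero_iff_ker_ne_bot.mpr hk)))
    -- `φ ∘ r` attains its maximum over the ball at `x`
    have hmax : ∀ w, φ (fderiv ℝ r x w) = 0 := by
      intro w
      have hloc : IsLocalMax (fun z => φ (r z)) x := by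
        filter_upwards [(continuous_norm.tendsto x).eventually (eventually_lt_nhds hxb)] with z hz
        rw [hφx, hs x hx1]
        refine (le_abs_self _).trans ((φ.le_opNorm (r z)).trans ?_)
        rw [hs z hz.le, mul_one]; exact hφ1
      exact DFunLike.congr_fun
        (hloc.hasFDerivAt_eq_zero (φ.hasFDerivAt.comp x hx.2.hasFDerivAt)) w
    obtain ⟨w, hw⟩ := hsurj (r x)
    have := hmax w
    rw [hw, hφx, hs x hx1] at this
    exact one_ne_zero this
  have hsumI : ∫ x in D, (1 + A x).det ∂μ
      = ∑ j, (Lagrange.basis Finset.univ v j).eval 1 * μ.real B := by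
    rw [setIntegral_congr_fun hDm fun x _ => det_interpolate rfl hvi (A x)]
    rw [integral_finsetSum _ fun j _ => (hint1 j).const_mul _]
    exact Finset.sum_congr rfl fun j _ => by rw [integral_const_mul, key]
  have hbasis : ∑ j, (Lagrange.basis Finset.univ v j).eval (1 : ℝ) = 1 := by
    rw [← Polynomial.eval_finsetSum, Lagrange.sum_basis hvi.injOn Finset.univ_nonempty,
      Polynomial.eval_one]
  rw [setIntegral_congr_fun hDm hzero, integral_zero, ← Finset.sum_mul, hbasis, one_mul] at hsumI
  exact (ENNReal.toReal_pos (measure_closedBall_pos μ 0 one_pos).ne'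
    (isCompact_closedBall _ _).measure_lt_top.ne).ne hsumI

end Vale.Agent.P084.Finite
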