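import Mathlib

/-!
Determinants of maps with bounded Hilbert-Schmidt norm.
-/

namespace Vale.Agent.P084.Finite

open Matrix

theorem det_sq_le_one {n : ℕ} (M : Matrix (Fin n) (Fin n) ℝ) (h : ∑ i, ∑ j, M i j ^ 2 ≤ n) :
    M.det ^ 2 ≤ 1 ∧ (1 ≤ M.det ^ 2 → Mᵀ * M = 1) := by
  set H := Mᵀ * M with hH
  have hP : H.PosSemidef := by
    have := Matrix.posSemidef_conjTranspose_mul_self M
    rwa [Matrix.conjTranspose_eq_transpose_of_trivial] at this
  have hdet : H.det = M.det ^ 2 := by rw [Matrix.det_mul, Matrix.det_transpose, sq]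
  set l := hP.1.eigenvalues with hl
  have hl0 : ∀ i, 0 ≤ l i := hP.eigenvalues_nonneg
  have hsum : ∑ i, l i ≤ n := by
    have h1 := hP.1.trace_eq_sum_eigenvalues
    simp only [RCLike.ofReal_real_eq_id, id_eq] at h1
    rw [← h1]
    refine le_trans (le_of_eq ?_) h
    simp only [hH, Matrix.trace, Matrix.diag, Matrix.mul_apply, Matrix.transpose_apply, sq]
    exact Finset.sum_comm
  have hprod : H.det = ∏ i, l i := by simpa using hP.1.det_eq_prod_eigenvalues
  have hle : ∀ i, l i ≤ Real.exp (l i - 1) := fun i => by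
    linarith [Real.add_one_le_exp (l i - 1)]
  have hbound : H.det ≤ 1 := by
    rw [hprod]
    calc ∏ i, l i ≤ ∏ i, Real.exp (l i - 1) := Finset.prod_le_prod (fun i _ => hl0 i) fun i _ => hle i
      _ = Real.exp (∑ i, (l i - 1)) := (Real.exp_sum _ _).symm
      _ ≤ 1 := Real.exp_le_one_iff.mpr (by simp [Finset.sum_sub_distrib]; linarith)
  refine ⟨hdet ▸ hbound, fun h1 => ?_⟩
  have h1' : H.det = 1 := le_antisymm hbound (hdet ▸ h1)
  have hone : ∀ i, l i = 1 := by
    intro i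
    by_contra hi
    have hpos : ∀ j, 0 < l j := fun j => (hl0 j).lt_of_ne fun h0 => by
      rw [hprod, Finset.prod_eq_zero (Finset.mem_univ j) h0.symm] at h1'
      exact zero_ne_one h1'
    have hlt : ∏ j, l j < ∏ j, Real.exp (l j - 1) := by
      refine Finset.prod_lt_prod (fun j _ => hpos j) (fun j _ => hle j) ⟨i, Finset.mem_univ i, ?_⟩
      linarith [Real.add_one_lt_exp (sub_ne_zero.mpr hi)]
    rw [← hprod, h1', ← Real.exp_sum] at hlt
    have : Real.exp (∑ j, (l j - 1)) ≤ 1 :=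
      Real.exp_le_one_iff.mpr (by simp [Finset.sum_sub_distrib]; linarith)
    linarith
  have hdiag : Matrix.diagonal ((RCLike.ofReal : ℝ → ℝ) ∘ l) = 1 := by
    rw [← Matrix.diagonal_one]
    congr 1
    funext i
    simp [hone i]
  rw [hP.1.spectral_theorem, hdiag, map_one]

/-- A linear map with squared Hilbert-Schmidt norm at most `n` has determinant at most one in
absolute value, with equality only for isometries. -/
theorem abs_det_le_one {n : ℕ} (A : EuclideanSpace ℝ (Fin n) →L[ℝ] EuclideanSpace ℝ (Fin n))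
    (h : ∑ j, ‖A (EuclideanSpace.single j (1 : ℝ))‖ ^ 2 ≤ n) :
    |A.det| ≤ 1 ∧ (1 ≤ |A.det| → ∀ v, ‖A v‖ = ‖v‖) := by
  set b := (EuclideanSpace.basisFun (Fin n) ℝ).toBasis with hb
  set M := LinearMap.toMatrix b b (A : EuclideanSpace ℝ (Fin n) →ₗ[ℝ] EuclideanSpace ℝ (Fin n))
    with hM
  have hMd : M.det = A.det := LinearMap.det_toMatrix b _
  have hMe : ∀ i j, M i j = A (EuclideanSpace.single j (1 : ℝ)) i := fun i j => by
    simp [hM, hb, LinearMap.toMatrix_apply]
  have hs : ∑ i, ∑ j, M i j ^ 2 ≤ n := by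
    refine le_trans (le_of_eq ?_) h
    rw [Finset.sum_comm]
    simp [EuclideanSpace.norm_sq_eq, hMe]
  obtain ⟨h1, h2⟩ := det_sq_le_one M hs
  rw [hMd] at h1 h2
  refine ⟨(sq_le_one_iff_abs_le_one _).mp h1, fun hd v => ?_⟩
  have hMM := h2 (by nlinarith [sq_abs A.det])
  have hAv : ∀ i, A v i = (M *ᵥ fun j => v j) i := fun i => by
    have := LinearMap.toMatrix_mulVec_repr b b
      (A : EuclideanSpace ℝ (Fin n) →ₗ[ℝ] EuclideanSpace ℝ (Fin n)) v
    have hv : (fun j => v j) = ⇑(b.repr v) := funext fun j => by simp [hb]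
    rw [hv]
    simpa [hb, hM] using (congrFun this i).symm
  have hsq : ‖A v‖ ^ 2 = ‖v‖ ^ 2 := by
    rw [EuclideanSpace.real_norm_sq_eq, EuclideanSpace.real_norm_sq_eq]
    calc ∑ i, A v i ^ 2 = (M *ᵥ fun j => v j) ⬝ᵥ (M *ᵥ fun j => v j) := by
          simp [dotProduct, hAv, sq]
      _ = (fun j => v j) ⬝ᵥ ((Mᵀ * M) *ᵥ fun j => v j) := by
          rw [← Matrix.mulVec_mulVec, Matrix.dotProduct_mulVec, Matrix.mulVec_transpose,
            dotProduct_comm]
      _ = ∑ i, v i ^ 2 := by simp [hMM, dotProduct, sq]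
  exact (sq_eq_sq₀ (norm_nonneg _) (norm_nonneg _)).mp hsq

end Vale.Agent.P084.Finite
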