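import Mathlib

/-!
An optimal finite frame of norm one functionals in a finite-dimensional normed space.
-/

namespace Vale.Agent.P084.Finite

open Matrix

theorem isCompact_convexHull_fin {V : Type*} [NormedAddCommGroup V] [NormedSpace ℝ V]
    [FiniteDimensional ℝ V] {s : Set V} (hs : IsCompact s) (hne : s.Nonempty) :
    IsCompact (convexHull ℝ s) := by
  obtain ⟨z0, hz0⟩ := hne
  set N := Module.finrank ℝ V + 1 with hN
  set P : (Fin N → ℝ) × (Fin N → V) → V := fun q => ∑ i, q.1 i • q.2 i with hP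
  have heq : convexHull ℝ s = P '' (stdSimplex ℝ (Fin N) ×ˢ Set.univ.pi fun _ => s) := by
    refine Set.Subset.antisymm (fun x hx => ?_) ?_
    · obtain ⟨ι, _, z, w, hz, hind, hw, hw1, hsum⟩ := eq_pos_convex_span_of_mem_convexHull hx
      have hcard : Fintype.card ι ≤ N :=
        hind.card_le_finrank_succ.trans (Nat.add_le_add_right (Submodule.finrank_le _) 1)
      obtain ⟨e⟩ : Nonempty (ι ↪ Fin N) := Function.Embedding.nonempty_of_card_le (by simpa)
      refine ⟨⟨Function.extend e w 0, Function.extend e z fun _ => z0⟩, ⟨⟨fun i => ?_, ?_⟩,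
        fun i _ => ?_⟩, ?_⟩
      · by_cases h : ∃ j, e j = i
        · obtain ⟨j, rfl⟩ := h; simp only [e.injective.extend_apply]; exact (hw j).le
        · simp only [Function.extend_apply' _ _ _ h]; exact le_rfl
      · rw [← hw1]
        refine (Finset.sum_of_injOn e e.injective.injOn (by simp) (fun i _ hi => ?_)
          fun j _ => ?_).symm
        · simp only [Function.extend_apply' _ _ _ (by simpa using hi : ¬∃ j, e j = i)]; rfl
        · simp only [e.injective.extend_apply]
      · by_cases h : ∃ j, e j = i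
        · obtain ⟨j, rfl⟩ := h; simp only [e.injective.extend_apply]; exact hz ⟨j, rfl⟩
        · simp only [Function.extend_apply' _ _ _ h]; exact hz0
      · rw [← hsum]
        refine (Finset.sum_of_injOn e e.injective.injOn (by simp) (fun i _ hi => ?_)
          fun j _ => ?_).symm
        · simp [Function.extend_apply' _ _ _ (by simpa using hi : ¬∃ j, e j = i)]
        · simp [e.injective.extend_apply]
    · rintro _ ⟨⟨w, z⟩, ⟨hw, hz⟩, rfl⟩
      exact (convex_convexHull ℝ s).sum_mem (fun i _ => hw.1 i) hw.2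
        fun i _ => subset_convexHull ℝ s (hz i trivial)
  rw [heq]
  exact ((isCompact_stdSimplex ℝ (Fin N)).prod (isCompact_univ_pi fun _ => hs)).image
    (by fun_prop)

theorem le_one_of_perturb {n : ℕ} (hn : n ≠ 0) {s : ℝ} (hs : 0 ≤ s)
    (h : ∀ t : ℝ, 0 < t → t < 1 → (1 - t) ^ n * (1 + n * t / (1 - t) * s) ≤ 1) : s ≤ 1 := by
  obtain ⟨k, hk⟩ := Nat.exists_eq_succ_of_ne_zero hn
  have hkn : (k : ℝ) + 1 = n := by rw [hk]; push_cast; ring
  have hb : ∀ t : ℝ, 0 < t → t < 1 → (n : ℝ) * s - n ≤ k * t * (n * s - 1) := fun t h0 h1 => by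
    have h2 := h t h0 h1
    rw [show (1 - t) ^ n * (1 + n * t / (1 - t) * s) = (1 - t) ^ k * (1 - t + n * t * s) by
      rw [hk, pow_succ]; field_simp [(by linarith : (1 - t) ≠ 0)]] at h2
    have hpos : 0 ≤ 1 - t + n * t * s := by
      have : 0 ≤ (n : ℝ) * t * s := by positivity
      linarith
    have hb := one_add_mul_le_pow (a := -t) (by linarith) k
    rw [← sub_eq_add_neg] at hb
    have h3 : t * (n * s - n - k * t * (n * s - 1)) ≤ 0 := by
      have h4 := le_trans (mul_le_mul_of_nonneg_right hb hpos) h2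
      have e1 : (1 + k * -t) * (1 - t + n * t * s)
          = 1 + t * (n * s - n - k * t * (n * s - 1)) := by rw [← hkn]; ring
      linarith
    by_contra hc
    push Not at hc
    exact absurd h3 (not_le.mpr (mul_pos h0 (by linarith)))
  have hlim : Filter.Tendsto (fun t : ℝ => (k : ℝ) * t * (n * s - 1)) (nhdsWithin 0 (Set.Ioi 0))
      (nhds 0) := by
    have : Continuous fun t : ℝ => (k : ℝ) * t * (n * s - 1) := by fun_prop
    simpa using (this.tendsto 0).mono_left nhdsWithin_le_nhds
  have hle : (n : ℝ) * s - n ≤ 0 := ge_of_tendsto hlim (by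
    filter_upwards [Ioo_mem_nhdsGT (zero_lt_one : (0 : ℝ) < 1)] with t ht using hb t ht.1 ht.2)
  have hn1 : (1 : ℝ) ≤ n := by exact_mod_cast Nat.pos_of_ne_zero hn
  nlinarith

variable {X : Type*} [NormedAddCommGroup X] [NormedSpace ℝ X] [FiniteDimensional ℝ X]

/-- the rank one Gram matrix of a functional in a basis -/
noncomputable def gram {n : ℕ} (b : Module.Basis (Fin n) ℝ X) (φ : X →L[ℝ] ℝ) : Fin n → Fin n → ℝ :=
  fun i j => φ (b i) * φ (b j)

theorem gram_change {n : ℕ} (b b0 : Module.Basis (Fin n) ℝ X) (φ : X →L[ℝ] ℝ) :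
    Matrix.of (gram b φ) = (b0.toMatrix b)ᵀ * Matrix.of (gram b0 φ) * b0.toMatrix b := by
  have h : ∀ i, φ (b i) = ∑ k, b0.toMatrix b k i * φ (b0 k) := fun i => by
    conv_lhs => rw [← b0.sum_toMatrix_smul_self b i, map_sum]
    simp
  ext i j
  simp only [gram, Matrix.of_apply, Matrix.mul_apply, Matrix.transpose_apply, h,
    Finset.sum_mul, Finset.mul_sum]
  refine Finset.sum_congr rfl fun k _ => Finset.sum_congr rfl fun l _ => ?_
  ring

/-- The frame: coordinates `e` into Euclidean space with `|e x| ≥ ‖x‖`, resolved by finitely many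
functionals of norm at most one with total weight `n`. -/
theorem exists_frame (X : Type*) [NormedAddCommGroup X] [NormedSpace ℝ X]
    [FiniteDimensional ℝ X] {n : ℕ} (hn : Module.finrank ℝ X = n) :
    ∃ (m : ℕ) (e : X ≃L[ℝ] EuclideanSpace ℝ (Fin n)) (φ : Fin m → X →L[ℝ] ℝ) (c : Fin m → ℝ),
      (∀ i, ‖φ i‖ ≤ 1) ∧ (∀ i, 0 ≤ c i) ∧ ∑ i, c i = n ∧
      (∀ x y, ∑ i, c i * φ i x * φ i y = inner ℝ (e x) (e y)) ∧ ∀ x, ‖x‖ ≤ ‖e x‖ := by
  set b0 : Module.Basis (Fin n) ℝ X := Module.finBasisOfFinrankEq ℝ X hn with hb0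
  set K : Set (X →L[ℝ] ℝ) := Metric.closedBall 0 1 with hK
  have hKc : IsCompact K := isCompact_closedBall _ _
  set S := gram b0 '' K with hS
  have hScont : Continuous (gram b0 : (X →L[ℝ] ℝ) → Fin n → Fin n → ℝ) := by
    unfold gram; fun_prop
  have hSne : S.Nonempty := ⟨gram b0 0, 0, by simp [hK], rfl⟩
  obtain ⟨M, hM, hmax⟩ := (isCompact_convexHull_fin (hKc.image hScont) hSne).exists_isMaxOn
    (hSne.mono (subset_convexHull ℝ S)) (f := fun M => (Matrix.of M).det)
    (Continuous.continuousOn (Continuous.matrix_det continuous_id))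
  -- the maximum is positive
  have hMpos : 0 < (Matrix.of M).det := by
    by_cases hn0 : n = 0
    · subst hn0; simp
    have hnr : (0 : ℝ) < n := by exact_mod_cast Nat.pos_of_ne_zero hn0
    set co : Fin n → X →L[ℝ] ℝ := fun i => LinearMap.toContinuousLinearMap (b0.coord i) with hco
    have hco1 : ∀ i j, co i (b0 j) = if i = j then (1 : ℝ) else 0 := fun i j => by
      simp [hco, Finsupp.single_apply, eq_comm]
    set a : Fin n → ℝ := fun i => (1 + ‖co i‖)⁻¹ with ha
    have hap : ∀ i, 0 < a i := fun i => by positivity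
    have hmem : (∑ i, ((n : ℝ)⁻¹) • gram b0 (a i • co i)) ∈ convexHull ℝ S := by
      refine (convex_convexHull ℝ S).sum_mem (fun i _ => by positivity) ?_
        fun i _ => subset_convexHull ℝ S ⟨_, ?_, rfl⟩
      · simp [Finset.card_univ, hnr.ne']
      · rw [hK, mem_closedBall_zero_iff, norm_smul, Real.norm_eq_abs, abs_of_pos (hap i), ha]
        exact (inv_mul_le_iff₀ (by positivity)).mpr (by linarith [norm_nonneg (co i)])
    refine lt_of_lt_of_le ?_ (hmax hmem)
    have e : Matrix.of (∑ i, ((n : ℝ)⁻¹) • gram b0 (a i • co i))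
        = Matrix.diagonal fun i => (n : ℝ)⁻¹ * a i ^ 2 := by
      ext j k
      simp only [Matrix.of_apply, Finset.sum_apply, Pi.smul_apply, gram, _root_.smul_apply, hco1,
        smul_eq_mul, Matrix.diagonal_apply]
      rw [Finset.sum_eq_single j (fun i _ hi => by simp [hi]) (by simp)]
      rcases eq_or_ne j k with rfl | h
      · simp only [if_true]; ring
      · simp [h]
    show 0 < (Matrix.of _).det
    rw [e, Matrix.det_diagonal]
    exact Finset.prod_pos fun i _ => mul_pos (inv_pos.mpr hnr) (pow_pos (hap i) 2)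
  obtain ⟨ι, _, w, z, hw, hw1, hz, hsum⟩ := mem_convexHull_iff_exists_fintype.mp hM
  choose φ0 hφ0 hφz using hz
  set m := Fintype.card ι with hm
  set σ := (Fintype.equivFin ι).symm
  set φ : Fin m → X →L[ℝ] ℝ := fun i => φ0 (σ i) with hφ
  set c : Fin m → ℝ := fun i => n * w (σ i) with hc
  have hc0 : ∀ i, 0 ≤ c i := fun i => mul_nonneg (Nat.cast_nonneg _) (hw _)
  have hMeq : ∀ i j, (n : ℝ) * M i j = ∑ k, c k * φ k (b0 i) * φ k (b0 j) := fun i j => by
    rw [← hsum]
    simp only [Finset.sum_apply, Pi.smul_apply, ← hφz, gram, smul_eq_mul, Finset.mul_sum, hc, hφ,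
      mul_assoc]
    exact (Equiv.sum_comp σ fun k => (n : ℝ) * (w k * (φ0 k (b0 i) * φ0 k (b0 j)))).symm
  -- coordinates
  let A : X →ₗ[ℝ] EuclideanSpace ℝ (Fin m) :=
    (WithLp.linearEquiv 2 ℝ (Fin m → ℝ)).symm.toLinearMap ∘ₗ
      LinearMap.pi fun i => Real.sqrt (c i) • (φ i : X →ₗ[ℝ] ℝ)
  have hAi : ∀ x y, inner ℝ (A x) (A y) = ∑ i, c i * φ i x * φ i y := fun x y => by
    rw [PiLp.inner_apply]
    refine Finset.sum_congr rfl fun i _ => ?_
    show inner ℝ (Real.sqrt (c i) * φ i x) (Real.sqrt (c i) * φ i y) = _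
    simp only [RCLike.inner_apply, conj_trivial]
    linear_combination (φ i x * φ i y) * Real.mul_self_sqrt (hc0 i)
  have hAinj : Function.Injective A := by
    refine (injective_iff_map_eq_zero _).mpr fun x hx => ?_
    by_contra hx0
    have hn0 : (n : ℝ) ≠ 0 := by
      intro h
      have h0 : Module.finrank ℝ X = 0 := by rw [hn]; exact_mod_cast h
      have : Subsingleton X := Module.finrank_zero_iff.mp h0
      exact hx0 (Subsingleton.elim _ _)
    refine hMpos.ne' (Matrix.exists_mulVec_eq_zero_iff.mp ⟨fun i => b0.repr x i, fun h => ?_, ?_⟩)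
    · exact hx0 (b0.repr.map_eq_zero_iff.mp (Finsupp.ext fun i => congrFun h i))
    · ext i
      have h1 : ∑ k, c k * φ k (b0 i) * φ k x = 0 := by rw [← hAi, hx, inner_zero_right]
      have h2 : ∀ k, φ k x = ∑ j, b0.repr x j * φ k (b0 j) := fun k => by
        conv_lhs => rw [← b0.sum_repr x, map_sum]
        simp
      refine mul_left_cancel₀ hn0 ?_
      simp only [Matrix.mulVec, dotProduct, Matrix.of_apply, Pi.zero_apply, mul_zero,
        Finset.mul_sum, ← mul_assoc, hMeq]
      rw [← h1]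
      simp only [h2, Finset.mul_sum, Finset.sum_mul]
      rw [Finset.sum_comm]
      exact Finset.sum_congr rfl fun k _ => Finset.sum_congr rfl fun j _ => by ring
  have hR : Module.finrank ℝ (LinearMap.range A) = n := by
    rw [LinearMap.finrank_range_of_inj hAinj, hn]
  let ob := (stdOrthonormalBasis ℝ (LinearMap.range A)).reindex (finCongr hR)
  let e : X ≃L[ℝ] EuclideanSpace ℝ (Fin n) :=
    ((LinearEquiv.ofInjective A hAinj).trans ob.repr.toLinearEquiv).toContinuousLinearEquiv
  have hei : ∀ x y, inner ℝ (e x) (e y) = ∑ i, c i * φ i x * φ i y := fun x y => by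
    rw [← hAi]
    exact ob.repr.inner_map_map _ _
  refine ⟨m, e, φ, c, fun i => by simpa [hK] using hφ0 (σ i), hc0, ?_, fun x y => (hei x y).symm,
    fun x => ?_⟩
  · simp only [hc, ← Finset.mul_sum]
    rw [Equiv.sum_comp σ w, hw1, mul_one]
  -- optimality
  obtain ⟨ψ, hψ1, hψx⟩ := exists_dual_vector'' ℝ x
  set b : Module.Basis (Fin n) ℝ X :=
    (EuclideanSpace.basisFun (Fin n) ℝ).toBasis.map e.symm.toLinearEquiv with hb
  set g : Fin n → ℝ := fun i => ψ (b i) with hg
  have heb : ∀ i, e (b i) = EuclideanSpace.single i (1 : ℝ) := fun i => by simp [hb]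
  set B := Matrix.of M with hB
  set P := b0.toMatrix b with hP
  have hPB : (n : ℝ) • (Pᵀ * B * P) = 1 := by
    have hsumM : Matrix.of M = ∑ k, w k • Matrix.of (gram b0 (φ0 k)) := by
      rw [← hsum]
      ext i j
      simp [← hφz, Matrix.sum_apply]
    have e2 : Pᵀ * B * P = ∑ k, w k • Matrix.of (gram b (φ0 k)) := by
      rw [hB, hsumM, Finset.mul_sum, Finset.sum_mul]
      refine Finset.sum_congr rfl fun k _ => ?_
      rw [Matrix.mul_smul, Matrix.smul_mul, hP, gram_change b b0]
    rw [e2]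
    ext i j
    have h1 := hei (b i) (b j)
    rw [heb, heb] at h1
    simp only [Matrix.smul_apply, Matrix.sum_apply, Matrix.of_apply, gram, smul_eq_mul,
      Finset.mul_sum]
    calc ∑ k, (n : ℝ) * (w k * (φ0 k (b i) * φ0 k (b j)))
        = ∑ k, c k * φ k (b i) * φ k (b j) := by
          rw [← Equiv.sum_comp σ fun k => (n : ℝ) * (w k * (φ0 k (b i) * φ0 k (b j)))]
          exact Finset.sum_congr rfl fun k _ => by simp only [hc, hφ]; ring
      _ = inner ℝ (EuclideanSpace.single i (1 : ℝ)) (EuclideanSpace.single j (1 : ℝ)) := h1.symm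
      _ = (1 : Matrix (Fin n) (Fin n) ℝ) i j := by
          simp [EuclideanSpace.inner_single_left, Matrix.one_apply, eq_comm]
  set s := g ⬝ᵥ g with hs
  have hs1 : s ≤ 1 := by
    by_contra hcon
    push Not at hcon
    by_cases hn0 : n = 0
    · subst hn0; simp [hs, dotProduct] at hcon; linarith
    have hn1 : (1 : ℝ) ≤ n := by exact_mod_cast Nat.pos_of_ne_zero hn0
    have hperturb : ∀ t : ℝ, 0 < t → t < 1 → (1 - t) ^ n * (1 + n * t / (1 - t) * s) ≤ 1 := by
      intro t ht0 ht1
      have hmem : (1 - t) • M + t • gram b0 ψ ∈ convexHull ℝ S :=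
        (convex_convexHull ℝ S) hM (subset_convexHull ℝ S ⟨ψ, by simpa [hK] using hψ1, rfl⟩)
          (by linarith) ht0.le (by ring)
      have hle : (Matrix.of ((1 - t) • M + t • gram b0 ψ)).det ≤ B.det := hmax hmem
      have e3 : Pᵀ * Matrix.of ((1 - t) • M + t • gram b0 ψ) * P
          = (1 - t) • (Pᵀ * B * P) + t • Matrix.vecMulVec g g := by
        rw [← Matrix.of_add_of, Matrix.mul_add, Matrix.add_mul, ← Matrix.smul_of,
          ← Matrix.smul_of, Matrix.mul_smul, Matrix.mul_smul, Matrix.smul_mul, Matrix.smul_mul,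
          ← hB, hP, ← gram_change b b0]
        rfl
      have hle2 := mul_le_mul_of_nonneg_left hle
        (mul_nonneg (pow_nonneg (Nat.cast_nonneg (α := ℝ) n) n) (mul_self_nonneg P.det))
      have e4 : ∀ C : Matrix (Fin n) (Fin n) ℝ,
          (n : ℝ) ^ n * (P.det * P.det) * C.det = ((n : ℝ) • (Pᵀ * C * P)).det := fun C => by
        rw [Matrix.det_smul, Fintype.card_fin, Matrix.det_mul, Matrix.det_mul,
          Matrix.det_transpose]
        ring
      rw [e4, e4, hPB, Matrix.det_one, e3, smul_add, smul_comm, hPB] at hle2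
      have ht : 0 < 1 - t := by linarith
      have e5 : (1 - t) • (1 : Matrix (Fin n) (Fin n) ℝ) + (n : ℝ) • t • Matrix.vecMulVec g g
          = (1 - t) • (1 + Matrix.replicateCol Unit ((n * t / (1 - t)) • g) *
              Matrix.replicateRow Unit g) := by
        rw [← Matrix.vecMulVec_eq, smul_add, Matrix.smul_vecMulVec, smul_smul, smul_smul]
        congr 2
        field_simp
      rw [e5, Matrix.det_smul, Matrix.det_one_add_replicateCol_mul_replicateRow,
        dotProduct_smul, Fintype.card_fin, smul_eq_mul] at hle2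
      exact hle2
    have hs0 : 0 ≤ s := Finset.sum_nonneg fun i _ => mul_self_nonneg (g i)
    exact absurd (le_one_of_perturb hn0 hs0 hperturb) (not_le.mpr hcon)
  have hψe : ψ x = inner ℝ (WithLp.toLp 2 g) (e x) := by
    conv_lhs => rw [← b.sum_repr x, map_sum]
    simp only [PiLp.inner_apply, RCLike.inner_apply, conj_trivial]
    refine Finset.sum_congr rfl fun i _ => ?_
    simp [hb, hg]
  have hgn : ‖WithLp.toLp 2 g‖ ≤ 1 := by
    have h1 : ‖WithLp.toLp 2 g‖ ^ 2 = s := by
      rw [EuclideanSpace.norm_sq_eq]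
      simp [hs, dotProduct, sq]
    nlinarith [norm_nonneg (WithLp.toLp 2 g)]
  calc ‖x‖ = ψ x := hψx.symm
    _ ≤ ‖WithLp.toLp 2 g‖ * ‖e x‖ := hψe ▸ real_inner_le_norm _ _
    _ ≤ ‖e x‖ := mul_le_of_le_one_left (norm_nonneg _) hgn

end Vale.Agent.P084.Finite
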