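import Mathlib

/-!
A Lipschitz map whose derivative is almost everywhere a contraction is a contraction on convex sets.
-/

namespace Vale.Agent.P084.Finite

open MeasureTheory Filter Topology

variable {E F : Type*} [NormedAddCommGroup E] [NormedSpace ℝ E] [FiniteDimensional ℝ E]
  [MeasurableSpace E] [BorelSpace E] [NormedAddCommGroup F] [NormedSpace ℝ F]
  (μ : Measure E) [μ.IsAddHaarMeasure]

theorem dist_le_of_ae {K : NNReal} {G : E → F} (hG : LipschitzWith K G) {U : Set E}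
    (hU : IsOpen U) (hc : Convex ℝ U)
    (hae : ∀ᵐ x ∂μ, x ∈ U → DifferentiableAt ℝ G x ∧ ∀ v, ‖fderiv ℝ G x v‖ ≤ ‖v‖)
    {a b : E} (ha : a ∈ U) (hb : b ∈ U) : ‖G b - G a‖ ≤ ‖b - a‖ := by
  obtain ⟨N, hsub, hNm, hN0⟩ := exists_measurable_superset_of_null (ae_iff.mp hae)
  set v := b - a with hv
  have h1 : ∀ᵐ t : ℝ, ∀ᵐ z ∂μ, z + t • v ∉ N := Eventually.of_forall fun t => by
    rw [ae_iff]
    simp only [not_not]
    show μ ((fun z => z + t • v) ⁻¹' N) = 0
    rw [measure_preimage_add_right, hN0]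
  have h2 : ∀ᵐ z ∂μ, ∀ᵐ t : ℝ, z + t • v ∉ N := by
    rw [Measure.ae_ae_comm]
    · exact h1
    · exact (hNm.preimage (show Measurable fun q : E × ℝ => q.1 + q.2 • v from
        measurable_fst.add (measurable_snd.smul_const v))).compl
  have hd := Measure.dense_of_ae h2
  set W := U ∩ (fun z => z + v) ⁻¹' U with hW
  have hWo : IsOpen W := hU.inter (hU.preimage (by fun_prop))
  have haW : a ∈ W := ⟨ha, by simpa [hv] using hb⟩
  have hmain : ∀ z ∈ W ∩ {z | ∀ᵐ t : ℝ, z + t • v ∉ N}, ‖G (z + v) - G z‖ ≤ ‖v‖ := by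
    rintro z ⟨⟨hz, hzv⟩, hzN⟩
    obtain ⟨φ, hφ, hφe⟩ := exists_dual_vector'' ℝ (G (z + v) - G z)
    simp only [RCLike.ofReal_real_eq_id, id_eq] at hφe
    set g : ℝ → ℝ := fun t => φ (G (z + t • v)) with hg
    have hgl : LipschitzWith (‖φ‖₊ * (K * (0 + ‖v‖₊))) g :=
      φ.lipschitz.comp (hG.comp ((LipschitzWith.const z).add
        (LipschitzWith.of_dist_le_mul fun s t => by
          rw [dist_eq_norm, ← sub_smul, norm_smul, dist_eq_norm, coe_nnnorm, mul_comm])))
    have hI := (hgl.lipschitzOnWith (s := Set.uIcc (0 : ℝ) 1)).absolutelyContinuousOnInterval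
      |>.integral_deriv_eq_sub
    have hbound : ‖∫ t in (0 : ℝ)..1, deriv g t‖ ≤ ‖v‖ * |(1 : ℝ) - 0| := by
      refine intervalIntegral.norm_integral_le_of_norm_le_const_ae ?_
      filter_upwards [hzN] with t ht htI
      rw [Set.uIoc_of_le zero_le_one] at htI
      have hmem : z + t • v ∈ U := hc.add_smul_mem hz hzv ⟨htI.1.le, htI.2⟩
      obtain ⟨hdiff, hle⟩ : DifferentiableAt ℝ G (z + t • v) ∧
          ∀ w, ‖fderiv ℝ G (z + t • v) w‖ ≤ ‖w‖ := by
        by_contra hcon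
        exact ht (hsub fun h => hcon (h hmem))
      have hd' : HasDerivAt g (φ (fderiv ℝ G (z + t • v) v)) t :=
        φ.hasFDerivAt.comp_hasDerivAt t (hdiff.hasFDerivAt.comp_hasDerivAt t
          (by simpa using ((hasDerivAt_id t).smul_const v).const_add z))
      rw [hd'.deriv]
      calc ‖φ (fderiv ℝ G (z + t • v) v)‖ ≤ ‖φ‖ * ‖fderiv ℝ G (z + t • v) v‖ := φ.le_opNorm _
        _ ≤ 1 * ‖v‖ := mul_le_mul hφ (hle v) (norm_nonneg _) zero_le_one
        _ = ‖v‖ := one_mul _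
    rw [hI] at hbound
    simp only [hg, one_smul, zero_smul, add_zero, ← map_sub, hφe, Real.norm_eq_abs,
      abs_norm, sub_zero, abs_one, mul_one] at hbound
    exact hbound
  have hcl : a ∈ closure (W ∩ {z | ∀ᵐ t : ℝ, z + t • v ∉ N}) := hd.open_subset_closure_inter hWo haW
  have hclosed : IsClosed {z | ‖G (z + v) - G z‖ ≤ ‖v‖} :=
    isClosed_le (((hG.continuous.comp (by fun_prop)).sub hG.continuous).norm) continuous_const
  have h : ‖G (a + v) - G a‖ ≤ ‖v‖ := closure_minimal hmain hclosed hcl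
  rwa [hv, add_sub_cancel] at h

end Vale.Agent.P084.Finite
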