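import Vale.Agent.P084.Ext
import Vale.Agent.P084.Finite.Frame
import Vale.Agent.P084.Finite.Det
import Vale.Agent.P084.Finite.Degree
import Vale.Agent.P084.Finite.Lines

/-!
An isometry between the unit spheres of finite-dimensional normed spaces is linear.
-/

namespace Vale.Agent.P084.Finite

open MeasureTheory Metric Filter Topology

variable {X Y : Type*} [NormedAddCommGroup X] [NormedSpace ℝ X]
  [NormedAddCommGroup Y] [NormedSpace ℝ Y]

/-- gluing two Lipschitz maps along the unit sphere -/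
theorem lipschitz_glue {g h : Y → Y} {K L : NNReal} (hg : LipschitzWith K g)
    (hh : LipschitzWith L h) (heq : ∀ y, ‖y‖ = 1 → g y = h y) :
    LipschitzWith (max K L) fun y => if ‖y‖ ≤ 1 then g y else h y := by
  refine LipschitzWith.of_dist_le_mul fun a b => ?_
  have key : ∀ a b : Y, ‖a‖ ≤ 1 → 1 < ‖b‖ → dist (g a) (h b) ≤ max K L * dist a b := by
    intro a b ha hb
    obtain ⟨t, ht, htn⟩ := intermediate_value_Icc (zero_le_one : (0 : ℝ) ≤ 1)
      (show ContinuousOn (fun t : ℝ => ‖a + t • (b - a)‖) (Set.Icc 0 1) by fun_prop)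
      (show (1 : ℝ) ∈ Set.Icc _ _ by simp [ha, hb.le])
    set c := a + t • (b - a) with hc
    calc dist (g a) (h b) ≤ dist (g a) (g c) + dist (h c) (h b) := by
          rw [heq c htn]; exact dist_triangle _ _ _
      _ ≤ max (K : ℝ) L * dist a c + max (K : ℝ) L * dist c b := add_le_add
          ((hg.dist_le_mul _ _).trans
            (mul_le_mul_of_nonneg_right (le_max_left _ _) dist_nonneg))
          ((hh.dist_le_mul _ _).trans
            (mul_le_mul_of_nonneg_right (le_max_right _ _) dist_nonneg))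
      _ = max (K : ℝ) L * dist a b := by
          have e1 : dist a c = t * dist a b := by
            rw [dist_eq_norm, dist_eq_norm, show a - c = t • (a - b) by rw [hc]; module, norm_smul,
              Real.norm_eq_abs, abs_of_nonneg ht.1]
          have e2 : dist c b = (1 - t) * dist a b := by
            rw [dist_eq_norm, dist_eq_norm, show c - b = (1 - t) • (a - b) by rw [hc]; module,
              norm_smul, Real.norm_eq_abs, abs_of_nonneg (sub_nonneg.mpr ht.2)]
          rw [e1, e2]; ring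
  simp only [NNReal.coe_max]
  by_cases ha : ‖a‖ ≤ 1 <;> by_cases hb : ‖b‖ ≤ 1 <;> simp only [ha, hb, if_true, if_false]
  · exact (hg.dist_le_mul _ _).trans (mul_le_mul_of_nonneg_right (le_max_left _ _) dist_nonneg)
  · exact key a b ha (not_le.mp hb)
  · rw [dist_comm, dist_comm a]; exact key b a hb (not_le.mp ha)
  · exact (hh.dist_le_mul _ _).trans (mul_le_mul_of_nonneg_right (le_max_right _ _) dist_nonneg)

/-- radial truncation -/
theorem lipschitz_normalise {δ : ℝ} (hδ : 0 < δ) :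
    LipschitzWith (2 / δ).toNNReal fun x : X => (max ‖x‖ δ)⁻¹ • x := by
  refine LipschitzWith.of_dist_le_mul fun a b => ?_
  rw [Real.coe_toNNReal _ (by positivity), dist_eq_norm, dist_eq_norm]
  set p := max ‖a‖ δ with hp
  set q := max ‖b‖ δ with hq
  have hp0 : δ ≤ p := le_max_right _ _
  have hq0 : δ ≤ q := le_max_right _ _
  have hbq : ‖b‖ ≤ q := le_max_left _ _
  have hpq : |q - p| ≤ ‖a - b‖ := by
    refine (abs_max_sub_max_le_abs _ _ _).trans ?_
    rw [norm_sub_rev]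
    exact abs_norm_sub_norm_le b a
  have e : p⁻¹ • a - q⁻¹ • b = p⁻¹ • (a - b) + (p⁻¹ * (q - p) * q⁻¹) • b := by
    rw [show p⁻¹ * (q - p) * q⁻¹ = p⁻¹ - q⁻¹ by
      field_simp [(hδ.trans_le hp0).ne', (hδ.trans_le hq0).ne']]
    module
  rw [e]
  refine (norm_add_le _ _).trans ?_
  rw [norm_smul, norm_smul, norm_mul, norm_mul, norm_inv, norm_inv, Real.norm_eq_abs,
    Real.norm_eq_abs, Real.norm_eq_abs, abs_of_pos (hδ.trans_le hp0), abs_of_pos (hδ.trans_le hq0)]
  have h1 : p⁻¹ * ‖a - b‖ ≤ δ⁻¹ * ‖a - b‖ := by gcongr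
  have h2 : p⁻¹ * |q - p| * q⁻¹ * ‖b‖ ≤ δ⁻¹ * ‖a - b‖ := by
    calc p⁻¹ * |q - p| * q⁻¹ * ‖b‖ = p⁻¹ * |q - p| * (q⁻¹ * ‖b‖) := by ring
      _ ≤ δ⁻¹ * ‖a - b‖ * 1 := by
          gcongr
          exact inv_mul_le_one_of_le₀ hbq (hδ.le.trans hq0)
      _ = δ⁻¹ * ‖a - b‖ := mul_one _
  rw [show 2 / δ * ‖a - b‖ = δ⁻¹ * ‖a - b‖ + δ⁻¹ * ‖a - b‖ by ring]
  linarith

variable [FiniteDimensional ℝ X] [FiniteDimensional ℝ Y]

omit [FiniteDimensional ℝ X] in
/-- a Lipschitz map extending a homeomorphism of spheres covers the ball -/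
theorem covers {F : X → Y} (H : Ext F) {K : NNReal} {G : Y → X} (hG : LipschitzWith K G)
    (hGF : ∀ y, ‖y‖ = 1 → F (G y) = y) {x0 : X} (hx0 : ‖x0‖ ≤ 1) :
    ∃ y, ‖y‖ ≤ 1 ∧ G y = x0 := by
  by_cases h1 : ‖x0‖ = 1
  · refine ⟨F x0, by rw [H.norm_eq, h1], ?_⟩
    exact H.antilipschitz.injective (hGF _ (by rw [H.norm_eq, h1]))
  by_contra hcon
  push Not at hcon
  have hlt : ‖x0‖ < 1 := lt_of_le_of_ne hx0 h1
  set w := (1 - ‖x0‖)⁻¹ • x0 with hw
  set M : X → X := fun z => z - (max 0 (1 - ‖z‖)) • w with hM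
  have hM0 : ∀ z, M z = 0 → z = x0 := by
    intro z hz
    have hz' : z = (max 0 (1 - ‖z‖)) • w := sub_eq_zero.mp hz
    by_cases hzn : 1 ≤ ‖z‖
    · rw [max_eq_left (by linarith), zero_smul] at hz'
      rw [hz', norm_zero] at hzn; linarith
    push Not at hzn
    rw [max_eq_right (by linarith)] at hz'
    have hn := congrArg norm hz'
    rw [norm_smul, hw, norm_smul, Real.norm_eq_abs, Real.norm_eq_abs,
      abs_of_pos (by linarith : (0 : ℝ) < 1 - ‖z‖),
      abs_of_pos (inv_pos.mpr (by linarith : (0 : ℝ) < 1 - ‖x0‖))] at hn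
    have hne : (1 : ℝ) - ‖x0‖ ≠ 0 := by linarith
    field_simp at hn
    have hzx : ‖z‖ = ‖x0‖ := by linarith
    rw [hzx, hw, smul_smul, mul_inv_cancel₀ hne, one_smul] at hz'
    exact hz'
  have hMl : LipschitzWith (1 + ‖w‖₊) M := by
    refine LipschitzWith.id.sub (LipschitzWith.of_dist_le_mul fun a b => ?_)
    rw [dist_eq_norm, ← sub_smul, norm_smul, Real.norm_eq_abs, coe_nnnorm, mul_comm, dist_eq_norm]
    refine mul_le_mul_of_nonneg_left ?_ (norm_nonneg _)
    rw [max_comm 0, max_comm 0]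
    refine (abs_max_sub_max_le_abs _ _ _).trans ?_
    rw [show (1 : ℝ) - ‖a‖ - (1 - ‖b‖) = ‖b‖ - ‖a‖ by ring, norm_sub_rev]
    exact abs_norm_sub_norm_le b a
  rcases subsingleton_or_nontrivial Y with hY | hY
  · obtain ⟨y, hy⟩ : ∃ y : Y, ‖y‖ ≤ 1 := ⟨0, by simp⟩
    have : x0 = G y := H.antilipschitz.injective (Subsingleton.elim _ _)
    exact hcon y hy this.symm
  obtain ⟨ym, hym, hmin⟩ := (isCompact_closedBall (0 : Y) 1).exists_isMinOn
    (nonempty_closedBall.mpr zero_le_one) (f := fun y => ‖M (G y)‖)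
    ((hMl.comp hG).continuous.norm.continuousOn)
  set δ := min 1 ‖M (G ym)‖ with hδ
  have hδ0 : 0 < δ := lt_min one_pos (norm_pos_iff.mpr fun h =>
    hcon ym (by simpa using hym) (hM0 _ h))
  have hge : ∀ y, ‖y‖ ≤ 1 → δ ≤ ‖M (G y)‖ := fun y hy =>
    (min_le_right _ _).trans (hmin (by simpa using hy))
  set g : Y → Y := fun y => F ((max ‖M (G y)‖ δ)⁻¹ • M (G y)) with hg
  have hgl : LipschitzWith (3 * ((2 / δ).toNNReal * ((1 + ‖w‖₊) * K))) g :=
    H.lipschitz.comp ((lipschitz_normalise hδ0).comp (hMl.comp hG))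
  have heq : ∀ y, ‖y‖ = 1 → g y = id y := by
    intro y hy
    have hGy : ‖G y‖ = 1 := by rw [← H.norm_eq, hGF y hy, hy]
    have hMG : M (G y) = G y := by simp [hM, hGy]
    have hd1 : max 1 δ = 1 := max_eq_left (min_le_left _ _)
    simp only [hg, hMG, hGy, hd1, inv_one, one_smul, hGF y hy, id_eq]
  refine no_retraction (lipschitz_glue hgl LipschitzWith.id heq) (fun y hy => ?_) fun y hy => ?_
  · simp only [hy, if_true, hg, H.norm_eq, norm_smul, norm_inv, Real.norm_eq_abs]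
    rw [max_eq_left (hge y hy), abs_norm, inv_mul_cancel₀ (hδ0.trans_le (hge y hy)).ne']
  · rcases hy.eq_or_lt with h | h
    · simp only [← h, le_refl, if_true, heq y h.symm, id_eq]
    · simp [not_le.mpr h]

/-- the derivative of a frame combination of contractions -/
theorem ae_det_le {n m : ℕ} (c : Fin m → ℝ) (hc : ∀ i, 0 ≤ c i) (hcn : ∑ i, c i = n)
    (wv : Fin m → EuclideanSpace ℝ (Fin n)) (q : Fin m → EuclideanSpace ℝ (Fin n) → ℝ)
    (hqlip : ∀ i, LipschitzWith 1 (q i))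
    (hframe : ∀ z z', ∑ i, c i * inner ℝ (wv i) z * inner ℝ (wv i) z' = inner ℝ z z') :
    ∀ᵐ u ∂(volume : Measure (EuclideanSpace ℝ (Fin n))),
      DifferentiableAt ℝ (fun u => ∑ i, (c i * q i u) • wv i) u ∧
        |(fderiv ℝ (fun u => ∑ i, (c i * q i u) • wv i) u).det| ≤ 1 ∧
        (1 ≤ |(fderiv ℝ (fun u => ∑ i, (c i * q i u) • wv i) u).det| →
          ∀ v, ‖fderiv ℝ (fun u => ∑ i, (c i * q i u) • wv i) u v‖ = ‖v‖) := by
  filter_upwards [ae_all_iff.mpr fun i => (hqlip i).ae_differentiableAt] with u hu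
  have hd : HasFDerivAt (fun u => ∑ i, (c i * q i u) • wv i) (∑ i, (c i • fderiv ℝ (q i) u).smulRight (wv i)) u :=
    HasFDerivAt.fun_sum fun i _ => ((hu i).hasFDerivAt.const_mul (c i)).smul_const (wv i)
  refine ⟨hd.differentiableAt, ?_⟩
  rw [hd.fderiv]
  refine abs_det_le_one _ ?_
  set A := ∑ i, (c i • fderiv ℝ (q i) u).smulRight (wv i) with hA
  have hAb : ∀ v, ‖A v‖ ^ 2 ≤ ∑ i, c i * (fderiv ℝ (q i) u v) ^ 2 := fun v => by
    have h1 : ‖A v‖ ^ 2 = ∑ i, c i * fderiv ℝ (q i) u v * inner ℝ (wv i) (A v) := by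
      rw [← real_inner_self_eq_norm_sq]
      nth_rw 1 [hA]
      simp [_root_.sum_apply, sum_inner, real_inner_smul_left]
    have h3 : ‖A v‖ ^ 2 = ∑ i, c i * inner ℝ (wv i) (A v) * inner ℝ (wv i) (A v) := by
      rw [hframe, real_inner_self_eq_norm_sq]
    have h4 : ∑ i, c i * fderiv ℝ (q i) u v * inner ℝ (wv i) (A v)
        ≤ (∑ i, c i * (fderiv ℝ (q i) u v) ^ 2) / 2
          + (∑ i, c i * inner ℝ (wv i) (A v) * inner ℝ (wv i) (A v)) / 2 := by
      rw [Finset.sum_div, Finset.sum_div, ← Finset.sum_add_distrib]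
      exact Finset.sum_le_sum fun i _ => by
        nlinarith [mul_nonneg (hc i) (sq_nonneg (fderiv ℝ (q i) u v - inner ℝ (wv i) (A v)))]
    rw [← h1, ← h3] at h4
    linarith
  refine (Finset.sum_le_sum fun j _ => hAb _).trans ?_
  rw [Finset.sum_comm, ← hcn]
  refine Finset.sum_le_sum fun i _ => ?_
  rw [← Finset.mul_sum]
  refine mul_le_of_le_one_right (hc i) ?_
  set a := fderiv ℝ (q i) u
  set gv : EuclideanSpace ℝ (Fin n) := WithLp.toLp 2 fun j => a (EuclideanSpace.single j 1) with hgv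
  have hgn : ∑ j, a (EuclideanSpace.single j 1) ^ 2 = ‖gv‖ ^ 2 := by
    rw [EuclideanSpace.real_norm_sq_eq]
  have hag : a gv = ‖gv‖ ^ 2 := by
    rw [← hgn]
    conv_lhs => rw [← (EuclideanSpace.basisFun (Fin n) ℝ).sum_repr gv, map_sum]
    simp [hgv, sq]
  have h5 : a gv ≤ ‖gv‖ := by
    refine (le_abs_self _).trans ((a.le_opNorm gv).trans (mul_le_of_le_one_left (norm_nonneg _) ?_))
    simpa using norm_fderiv_le_of_lipschitz ℝ (hqlip i) (x₀ := u)
  rw [hgn]
  rw [hag] at h5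
  nlinarith [norm_nonneg gv, sq_nonneg (‖gv‖ - 1)]

theorem lipschitz_comb {n m : ℕ} (c : Fin m → ℝ) (hc : ∀ i, 0 ≤ c i)
    (wv : Fin m → EuclideanSpace ℝ (Fin n)) (q : Fin m → EuclideanSpace ℝ (Fin n) → ℝ)
    (hqlip : ∀ i, LipschitzWith 1 (q i)) :
    ∃ K, LipschitzWith K fun u => ∑ i, (c i * q i u) • wv i := by
  refine ⟨(∑ i, c i * ‖wv i‖).toNNReal, LipschitzWith.of_dist_le_mul fun a b => ?_⟩
  rw [Real.coe_toNNReal _ (Finset.sum_nonneg fun i _ => mul_nonneg (hc i) (norm_nonneg _)),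
    dist_eq_norm, ← Finset.sum_sub_distrib, Finset.sum_mul]
  refine (norm_sum_le _ _).trans (Finset.sum_le_sum fun i _ => ?_)
  rw [← sub_smul, norm_smul, ← mul_sub, norm_mul, Real.norm_eq_abs, abs_of_nonneg (hc i)]
  have := (hqlip i).dist_le_mul a b
  rw [Real.dist_eq, NNReal.coe_one, one_mul] at this
  rw [Real.norm_eq_abs]
  calc c i * |q i a - q i b| * ‖wv i‖ ≤ c i * dist a b * ‖wv i‖ := by gcongr; exact hc i
    _ = c i * ‖wv i‖ * dist a b := by ring

/-- contraction on the closed ball from the equality case -/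
theorem contraction_of_equality {n : ℕ} (eY : Y ≃L[ℝ] EuclideanSpace ℝ (Fin n))
    {K : NNReal} {G : EuclideanSpace ℝ (Fin n) → EuclideanSpace ℝ (Fin n)} (hK : LipschitzWith K G)
    (hdet : ∀ᵐ u ∂(volume : Measure (EuclideanSpace ℝ (Fin n))),
      DifferentiableAt ℝ G u ∧ |(fderiv ℝ G u).det| ≤ 1 ∧
        (1 ≤ |(fderiv ℝ G u).det| → ∀ v, ‖fderiv ℝ G u v‖ = ‖v‖))
    (hfull : volume (eY '' closedBall 0 1)
      ≤ ∫⁻ u in eY '' closedBall 0 1, ENNReal.ofReal |(fderiv ℝ G u).det|) :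
    ∀ a ∈ eY '' closedBall 0 1, ∀ b ∈ eY '' closedBall 0 1, ‖G b - G a‖ ≤ ‖b - a‖ := by
  set BY := eY '' closedBall 0 1 with hBY
  have hBYc : IsCompact BY := (isCompact_closedBall _ _).image eY.continuous
  have hle : ∫⁻ u in BY, ENNReal.ofReal |(fderiv ℝ G u).det| ≤ volume BY := by
    rw [← setLIntegral_one]
    exact lintegral_mono_ae (ae_restrict_of_ae (hdet.mono fun u hu =>
      ENNReal.ofReal_le_one.mpr hu.2.1))
  have hone : ∀ᵐ u ∂(volume.restrict BY), ENNReal.ofReal |(fderiv ℝ G u).det| = (1 : ENNReal) :=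
    ae_eq_of_ae_le_of_lintegral_le
      (ae_restrict_of_ae (hdet.mono fun u hu => ENNReal.ofReal_le_one.mpr hu.2.1))
      (ne_top_of_le_ne_top hBYc.measure_lt_top.ne hle) aemeasurable_const
      (by rw [setLIntegral_one]; exact hfull)
  have hU : IsOpen (eY '' ball 0 1) := eY.toHomeomorph.isOpenMap _ isOpen_ball
  have hUc : Convex ℝ (eY '' ball 0 1) :=
    (convex_ball (0 : Y) 1).linear_image (eY : Y →ₗ[ℝ] EuclideanSpace ℝ (Fin n))
  have hlip : ∀ a ∈ eY '' ball 0 1, ∀ b ∈ eY '' ball 0 1, ‖G b - G a‖ ≤ ‖b - a‖ := by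
    intro a ha b hb
    refine dist_le_of_ae volume hK hU hUc ?_ ha hb
    rw [ae_restrict_iff' hBYc.measurableSet] at hone
    filter_upwards [hdet, hone] with u hu hu1 huU
    refine ⟨hu.1, fun v => (hu.2.2 ?_ v).le⟩
    have := hu1 (Set.image_mono ball_subset_closedBall huU)
    rw [ENNReal.ofReal_eq_one] at this
    exact this.ge
  rcases subsingleton_or_nontrivial (EuclideanSpace ℝ (Fin n)) with hs | hs
  · intro a _ b _; rw [Subsingleton.elim a b]; simp
  intro a ha b hb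
  have hcl : BY ⊆ closure (eY '' ball 0 1) := by
    rw [hBY, ← closure_ball (0 : Y) one_ne_zero]
    exact image_closure_subset_closure_image eY.continuous
  have hclosed : IsClosed {z : EuclideanSpace ℝ (Fin n) × EuclideanSpace ℝ (Fin n) |
      ‖G z.2 - G z.1‖ ≤ ‖z.2 - z.1‖} :=
    isClosed_le (((hK.continuous.comp continuous_snd).sub (hK.continuous.comp continuous_fst)).norm)
      (continuous_snd.sub continuous_fst).norm
  have hsub : (eY '' ball 0 1) ×ˢ (eY '' ball 0 1) ⊆ {z | ‖G z.2 - G z.1‖ ≤ ‖z.2 - z.1‖} :=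
    fun z hz => hlip _ hz.1 _ hz.2
  have hmem : ((a, b) : EuclideanSpace ℝ (Fin n) × EuclideanSpace ℝ (Fin n)) ∈
      closure ((eY '' ball 0 1) ×ˢ (eY '' ball 0 1)) := by
    rw [closure_prod_eq]
    exact Set.mk_mem_prod (hcl ha) (hcl hb)
  have h := closure_minimal hsub hclosed hmem
  exact h

/-- the data produced for one direction -/
theorem exists_calibration {n : ℕ} {F : X → Y} (H : Ext F)
    (eX : X ≃L[ℝ] EuclideanSpace ℝ (Fin n)) (eY : Y ≃L[ℝ] EuclideanSpace ℝ (Fin n))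
    {m : ℕ} (φ : Fin m → X →L[ℝ] ℝ) (c : Fin m → ℝ) (hφ : ∀ i, ‖φ i‖ ≤ 1) (hc : ∀ i, 0 ≤ c i)
    (hcn : ∑ i, c i = n) (hI : ∀ x y, ∑ i, c i * φ i x * φ i y = inner ℝ (eX x) (eX y))
    (hY : ∀ y, ‖y‖ ≤ ‖eY y‖) :
    volume (eX '' closedBall 0 1) ≤ volume (eY '' closedBall 0 1) ∧
      (volume (eY '' closedBall 0 1) ≤ volume (eX '' closedBall 0 1) →
        ∃ G : EuclideanSpace ℝ (Fin n) → EuclideanSpace ℝ (Fin n),
          (∀ x, ‖x‖ = 1 → G (eY (F x)) = eX x) ∧
          ∀ a ∈ eY '' closedBall 0 1, ∀ b ∈ eY '' closedBall 0 1, ‖G b - G a‖ ≤ ‖b - a‖) := by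
  -- the scalar extensions
  set Fi := Function.surjInv H.surj with hFi
  have hFF : ∀ y, F (Fi y) = y := Function.surjInv_eq H.surj
  have hext : ∀ i, ∃ g : Y → ℝ, LipschitzWith 1 g ∧ Set.EqOn (fun y => φ i (Fi y)) g (sphere 0 1) := by
    intro i
    refine LipschitzOnWith.extend_real (LipschitzOnWith.of_dist_le_mul fun a ha b hb => ?_)
    have ha' : ‖Fi a‖ = 1 := by rw [← H.norm_eq, hFF]; simpa using ha
    have hb' : ‖Fi b‖ = 1 := by rw [← H.norm_eq, hFF]; simpa using hb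
    rw [NNReal.coe_one, one_mul, dist_eq_norm, dist_eq_norm, ← map_sub]
    refine ((φ i).le_opNorm _).trans ((mul_le_of_le_one_left (norm_nonneg _) (hφ i)).trans_eq ?_)
    rw [← H.iso _ _ (ha'.trans hb'.symm), hFF, hFF]
  choose g hg hgeq using hext
  -- in Euclidean coordinates
  set q : Fin m → EuclideanSpace ℝ (Fin n) → ℝ := fun i u => g i (eY.symm u) with hq
  have hqlip : ∀ i, LipschitzWith 1 (q i) := fun i => by
    refine LipschitzWith.of_dist_le_mul fun a b => ?_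
    refine ((hg i).dist_le_mul _ _).trans ?_
    simp only [NNReal.coe_one, one_mul, dist_eq_norm, ← map_sub]
    exact (hY _).trans_eq (by rw [eY.apply_symm_apply])
  set wv : Fin m → EuclideanSpace ℝ (Fin n) := fun i =>
    (InnerProductSpace.toDual ℝ _).symm ((φ i).comp (eX.symm : EuclideanSpace ℝ (Fin n) →L[ℝ] X))
    with hwv
  have hwi : ∀ i z, inner ℝ (wv i) z = φ i (eX.symm z) := fun i z => by
    simp [hwv, InnerProductSpace.toDual_symm_apply]
  have hframe : ∀ z z', ∑ i, c i * inner ℝ (wv i) z * inner ℝ (wv i) z' = inner ℝ z z' := fun z z' => by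
    simp only [hwi, hI, ContinuousLinearEquiv.apply_symm_apply]
  set G : EuclideanSpace ℝ (Fin n) → EuclideanSpace ℝ (Fin n) :=
    fun u => ∑ i, (c i * q i u) • wv i with hG
  obtain ⟨K, hK⟩ : ∃ K, LipschitzWith K G := by
    exact lipschitz_comb c hc wv q hqlip
  have hbd : ∀ x, ‖x‖ = 1 → G (eY (F x)) = eX x := by
    intro x hx
    refine ext_inner_right ℝ fun z => ?_
    simp only [hG, sum_inner, real_inner_smul_left]
    have hq' : ∀ i, q i (eY (F x)) = φ i x := fun i => by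
      simp only [hq, ContinuousLinearEquiv.symm_apply_apply]
      rw [← hgeq i (by simp [H.norm_eq, hx])]
      simp only
      rw [H.antilipschitz.injective (hFF (F x))]
    simp only [hq', hwi]
    rw [hI x (eX.symm z), eX.apply_symm_apply]
  set BX := eX '' closedBall 0 1 with hBX
  set BY := eY '' closedBall 0 1 with hBY
  have hBYc : IsCompact BY := (isCompact_closedBall _ _).image eY.continuous
  have hcov : BX ⊆ G '' BY := by
    rintro _ ⟨x, hx, rfl⟩
    obtain ⟨L, hL⟩ : ∃ L, LipschitzWith L fun y => eX.symm (G (eY y)) :=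
      ⟨_, (eX.symm : EuclideanSpace ℝ (Fin n) →L[ℝ] X).lipschitz.comp (hK.comp
        (eY : Y →L[ℝ] EuclideanSpace ℝ (Fin n)).lipschitz)⟩
    obtain ⟨y, hy, hyx⟩ := covers H hL (fun y hy => by
      obtain ⟨z, rfl⟩ := H.surj y
      rw [hbd z (by rw [← H.norm_eq, hy]), eX.symm_apply_apply]) (x0 := x) (by simpa using hx)
    exact ⟨eY y, ⟨y, by simpa using hy, rfl⟩, by rw [← hyx, eX.apply_symm_apply]⟩
  have hdet : ∀ᵐ u ∂(volume : Measure (EuclideanSpace ℝ (Fin n))),
      DifferentiableAt ℝ G u ∧ |(fderiv ℝ G u).det| ≤ 1 ∧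
        (1 ≤ |(fderiv ℝ G u).det| → ∀ v, ‖fderiv ℝ G u v‖ = ‖v‖) :=
    ae_det_le c hc hcn wv q hqlip hframe
  have hle : ∫⁻ u in BY, ENNReal.ofReal |(fderiv ℝ G u).det| ≤ volume BY := by
    rw [← setLIntegral_one]
    exact lintegral_mono_ae (ae_restrict_of_ae (hdet.mono fun u hu =>
      ENNReal.ofReal_le_one.mpr hu.2.1))
  have himg : volume BX ≤ ∫⁻ u in BY, ENNReal.ofReal |(fderiv ℝ G u).det| :=
    (measure_mono hcov).trans (image_le_lintegral_det volume hK hBYc.measurableSet)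
  exact ⟨himg.trans hle, fun hrev =>
    ⟨G, hbd, contraction_of_equality eY hK hdet (hrev.trans himg)⟩⟩

/-- A sphere map which is distance non-increasing towards the centre together with its inverse is
linear. -/
theorem linear_of_contractions {n : ℕ} {F : X → Y} (H : Ext F)
    (eX : X ≃L[ℝ] EuclideanSpace ℝ (Fin n)) (eY : Y ≃L[ℝ] EuclideanSpace ℝ (Fin n))
    {P Q : EuclideanSpace ℝ (Fin n) → EuclideanSpace ℝ (Fin n)}
    (hP : ∀ x, ‖x‖ = 1 → P (eX x) = eY (F x)) (hQ : ∀ x, ‖x‖ = 1 → Q (eY (F x)) = eX x)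
    (hPl : ∀ a ∈ eX '' closedBall 0 1, ∀ b ∈ eX '' closedBall 0 1, ‖P b - P a‖ ≤ ‖b - a‖)
    (hQl : ∀ a ∈ eY '' closedBall 0 1, ∀ b ∈ eY '' closedBall 0 1, ‖Q b - Q a‖ ≤ ‖b - a‖) :
    ∃ T : X →ₗ[ℝ] Y, ∀ x, ‖x‖ = 1 → T x = F x := by
  set p := P 0 with hp
  have h0 : (0 : EuclideanSpace ℝ (Fin n)) ∈ eX '' closedBall 0 1 :=
    ⟨0, by simp, eX.map_zero⟩
  have mX : ∀ x, ‖x‖ = 1 → eX x ∈ eX '' closedBall 0 1 := fun x hx => ⟨x, by simp [hx], rfl⟩
  have mY : ∀ x, ‖x‖ = 1 → eY (F x) ∈ eY '' closedBall 0 1 := fun x hx =>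
    ⟨F x, by simp [H.norm_eq, hx], rfl⟩
  have hiso : ∀ a b, ‖a‖ = 1 → ‖b‖ = 1 → ‖eY (F a) - eY (F b)‖ = ‖eX a - eX b‖ := fun a b ha hb => by
    refine le_antisymm ?_ ?_
    · rw [← hP a ha, ← hP b hb]; exact hPl _ (mX b hb) _ (mX a ha)
    · rw [← hQ a ha, ← hQ b hb]; exact hQl _ (mY b hb) _ (mY a ha)
  have hrad : ∀ x, ‖x‖ = 1 → ‖eY (F x) - p‖ = ‖eX x‖ := fun x hx => by
    have hnx : ‖-x‖ = 1 := by rw [norm_neg, hx]
    have h1 : ‖eY (F x) - p‖ ≤ ‖eX x‖ := by
      have := hPl _ h0 _ (mX x hx)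
      rwa [hP x hx, sub_zero] at this
    have h2 : ‖eY (F (-x)) - p‖ ≤ ‖eX x‖ := by
      have := hPl _ h0 _ (mX _ hnx)
      rwa [hP _ hnx, sub_zero, map_neg eX, norm_neg] at this
    have h3 := hiso x (-x) hx hnx
    rw [map_neg eX, sub_neg_eq_add, ← two_smul ℝ, norm_smul, Real.norm_two] at h3
    have h4 := norm_sub_le_norm_sub_add_norm_sub (eY (F x)) p (eY (F (-x)))
    rw [norm_sub_rev p] at h4
    linarith
  have hinner : ∀ a b, ‖a‖ = 1 → ‖b‖ = 1 →
      inner ℝ (eY (F a) - p) (eY (F b) - p) = inner ℝ (eX a) (eX b) := fun a b ha hb => by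
    rw [real_inner_eq_norm_mul_self_add_norm_mul_self_sub_norm_sub_mul_self_div_two,
      real_inner_eq_norm_mul_self_add_norm_mul_self_sub_norm_sub_mul_self_div_two,
      sub_sub_sub_cancel_right, hiso a b ha hb, hrad a ha, hrad b hb]
  -- the linear map
  set a : Fin n → X := fun j =>
    ‖eX.symm (EuclideanSpace.single j 1)‖⁻¹ • eX.symm (EuclideanSpace.single j 1) with ha
  have han : ∀ j, ‖a j‖ = 1 := fun j => by
    rw [ha]
    simp only
    rw [norm_smul, norm_inv, norm_norm, inv_mul_cancel₀]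
    simp
  set b := (EuclideanSpace.basisFun (Fin n) ℝ).toBasis with hb
  set L : EuclideanSpace ℝ (Fin n) →ₗ[ℝ] EuclideanSpace ℝ (Fin n) :=
    b.constr ℝ fun j => ‖eX.symm (EuclideanSpace.single j 1)‖ • (eY (F (a j)) - p) with hL
  have hLi : ∀ v w, inner ℝ (L v) (L w) = inner ℝ v w := by
    have hbase : ∀ i j, inner ℝ (L (b i)) (L (b j)) = inner ℝ (b i) (b j) := fun i j => by
      rw [hL, Module.Basis.constr_basis, Module.Basis.constr_basis, real_inner_smul_left,
        real_inner_smul_right, hinner _ _ (han i) (han j)]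
      simp only [ha, map_smul, ContinuousLinearEquiv.apply_symm_apply, real_inner_smul_left,
        real_inner_smul_right, hb, OrthonormalBasis.coe_toBasis, EuclideanSpace.basisFun_apply]
      have hne : ∀ k : Fin n, ‖eX.symm (EuclideanSpace.single k (1 : ℝ))‖ ≠ 0 := fun k => by simp
      field_simp [hne i, hne j]
    intro v w
    rw [← b.sum_repr v, ← b.sum_repr w]
    simp only [map_sum, map_smul, sum_inner, inner_sum, real_inner_smul_left,
      real_inner_smul_right, hbase]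
  have hLx : ∀ x, ‖x‖ = 1 → eY (F x) - p = L (eX x) := fun x hx => by
    have hinj : Function.Injective L := (injective_iff_map_eq_zero _).mpr fun v hv => by
      rw [← inner_self_eq_zero (𝕜 := ℝ), ← hLi, hv, inner_zero_left]
    obtain ⟨v, hv⟩ := LinearMap.injective_iff_surjective.mp hinj (eY (F x) - p - L (eX x))
    have horth : inner ℝ (eY (F x) - p - L (eX x)) (L v) = (0 : ℝ) := by
      rw [← b.sum_repr v, map_sum, inner_sum]
      refine Finset.sum_eq_zero fun j _ => ?_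
      rw [map_smul, real_inner_smul_right, inner_sub_left, hLi, hL, Module.Basis.constr_basis,
        real_inner_smul_right, hinner _ _ hx (han j)]
      simp only [ha, map_smul, ContinuousLinearEquiv.apply_symm_apply,
        real_inner_smul_right, hb, OrthonormalBasis.coe_toBasis, EuclideanSpace.basisFun_apply]
      have hne : ‖eX.symm (EuclideanSpace.single j (1 : ℝ))‖ ≠ 0 := by simp
      field_simp
      ring
    rw [hv, inner_self_eq_zero] at horth
    exact sub_eq_zero.mp horth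
  -- the centre is the origin
  have hshift : ∀ u, ‖u‖ = 1 → ‖u - (2 : ℝ) • eY.symm p‖ = 1 := by
    intro u hu
    obtain ⟨x, hx⟩ := H.surj u
    subst hx
    rw [H.norm_eq] at hu
    have hnx : ‖-x‖ = 1 := by rw [norm_neg, hu]
    have e : eY (F (-x)) = -(eY (F x) - (2 : ℝ) • p) := by
      have h1 := hLx x hu
      have h2 := hLx _ hnx
      rw [map_neg eX, map_neg L, ← h1] at h2
      rw [sub_eq_iff_eq_add] at h2
      rw [h2, two_smul]; abel
    have : F (-x) = -(F x - (2 : ℝ) • eY.symm p) := by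
      apply eY.injective
      rw [e]; simp
    rw [← norm_neg, ← this, H.norm_eq, hnx]
  refine ⟨(eY.symm : EuclideanSpace ℝ (Fin n) →L[ℝ] Y).toLinearMap ∘ₗ L ∘ₗ
    (eX : X →L[ℝ] EuclideanSpace ℝ (Fin n)).toLinearMap, fun x hx => ?_⟩
  have hp0 : eY.symm p = 0 := by
    by_contra hne
    set d := (2 : ℝ) • eY.symm p with hd
    have hit : ∀ k : ℕ, ‖F x - (k : ℝ) • d‖ = 1 := by
      intro k
      induction k with
      | zero => simp [H.norm_eq, hx]
      | succ k ih =>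
        rw [Nat.cast_succ, add_smul, one_smul, ← sub_sub]
        exact hshift _ ih
    have hdp : 0 < ‖d‖ := norm_pos_iff.mpr (smul_ne_zero two_ne_zero hne)
    obtain ⟨k, hk⟩ := exists_nat_gt (2 / ‖d‖)
    rw [div_lt_iff₀ hdp] at hk
    have h1 := norm_sub_le (F x) (F x - (k : ℝ) • d)
    rw [sub_sub_cancel, norm_smul, hit, H.norm_eq, hx, Real.norm_natCast] at h1
    linarith
  show eY.symm (L (eX x)) = F x
  rw [← hLx x hx, map_sub, eY.symm_apply_apply, hp0, sub_zero]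

theorem exists_linear {F : X → Y} (H : Ext F) : ∃ T : X →ₗ[ℝ] Y, ∀ x, F x = T x := by
  set n := Module.finrank ℝ X with hn
  obtain ⟨m, eX, φ, c, h1, h2, h3, h4, h5⟩ := exists_frame X hn.symm
  obtain ⟨m', eY, φ', c', h1', h2', h3', h4', h5'⟩ := exists_frame Y H.finrank_eq
  set G := Function.surjInv H.surj with hG
  have r : ∀ u, F (G u) = u := Function.surjInv_eq H.surj
  have l : ∀ x, G (F x) = x := fun x => H.antilipschitz.injective (r (F x))
  have HG : Ext G :=
    { hom := fun t u ht => H.antilipschitz.injective (by rw [r, H.hom _ _ ht, r])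
      norm_eq := fun u => by rw [← H.norm_eq, r]
      iso := fun a b hab => by
        rw [← H.iso _ _ (by rw [← H.norm_eq, r, hab, ← H.norm_eq, r]), r, r]
      surj := fun x => ⟨F x, l x⟩ }
  obtain ⟨v1, e1⟩ := exists_calibration H eX eY φ c h1 h2 h3 h4 h5'
  obtain ⟨v2, e2⟩ := exists_calibration HG eY eX φ' c' h1' h2' h3' h4' h5
  obtain ⟨Q, hQ, hQl⟩ := e1 v2
  obtain ⟨P, hP, hPl⟩ := e2 v1
  obtain ⟨T, hT⟩ := linear_of_contractions H eX eY (P := P) (Q := Q)
    (fun x hx => by have := hP (F x) (by rw [H.norm_eq, hx]); rwa [l] at this) hQ hPl hQl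
  refine ⟨T, fun x => ?_⟩
  by_cases hx : x = 0
  · rw [hx, H.map_zero, map_zero]
  · have hn : 0 < ‖x‖ := norm_pos_iff.mpr hx
    have hu : ‖‖x‖⁻¹ • x‖ = 1 := by rw [norm_smul, norm_inv, norm_norm, inv_mul_cancel₀ hn.ne']
    calc F x = F (‖x‖ • ‖x‖⁻¹ • x) := by rw [smul_inv_smul₀ hn.ne']
      _ = ‖x‖ • T (‖x‖⁻¹ • x) := by rw [H.hom _ _ hn.le, hT _ hu]
      _ = T x := by rw [map_smul, smul_inv_smul₀ hn.ne']

end Vale.Agent.P084.Finite
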